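import Vale.Agent.P139Z.Persist
import Vale.Agent.P139Z.Hk

/-! Uniqueness, the tame estimate in Sobolev spaces and a lower bound for the lifespan. -/

open Set Filter Topology MeasureTheory Complex
open scoped NNReal ENNReal ComplexConjugate

namespace Vale.Agent.N139

open Vale.Agent.P139 Vale.Agent.P139.A Vale.Agent.P139.A.WA Vale.Agent.P139Z
open Vale.Agent.P139Z.Persist Vale.Agent.P139Z.Hk

variable {d k m : ℕ} {T : ℝ}

theorem coef_lift0 (hk : d < 2 * k) {p : ℕ} {u : ℝ → Lat d → ℂ} (hu : IsSolution d p k T u)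
    {t : ℝ} (ht : t ∈ Icc 0 T) (n : Lat d) : coef (lift 0 u t) n = u t n :=
  coef_lift (by simpa only [W_zero_eq, one_mul] using summable_of_memSobolev hk (hu.mem t ht)) n

theorem wsol0 (hk : d < 2 * k) {u : ℝ → Lat d → ℂ} (hu : IsSolution d (2 * m + 1) k T u) :
    IsWSol m T (lift 0 u) := by
  refine isWSol_of hu (fun t ht => ?_) fun t ht => coef_lift0 hk hu ht
  rw [ContinuousWithinAt, tendsto_iff_norm_sub_tendsto_zero]
  refine (tendsto_tsum_norm hk hu ht).congr' ?_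
  filter_upwards [self_mem_nhdsWithin] with s hs
  rw [WA.norm_eq]
  exact tsum_congr fun n => by
    rw [W_zero_eq, one_mul, coef_sub, coef_lift0 hk hu hs, coef_lift0 hk hu ht]

theorem wsol_mono {U : ℝ → WA d k} (hU : IsWSol m T U) {T' : ℝ} (h : T' ≤ T) : IsWSol m T' U :=
  ⟨hU.cont.mono (Icc_subset_Icc_right h), fun t ht n =>
    (hU.eqn t (Icc_subset_Icc_right h ht) n).mono (Icc_subset_Icc_right h)⟩

theorem wsol_unique {U V : ℝ → WA d k} (hU : IsWSol m T U) (hV : IsWSol m T V) (h0 : U 0 = V 0) :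
    ∀ t ∈ Icc 0 T, U t = V t := by
  obtain ⟨R₁, h₁⟩ := isCompact_Icc.exists_bound_of_continuousOn hU.cont
  obtain ⟨R₂, h₂⟩ := isCompact_Icc.exists_bound_of_continuousOn hV.cont
  obtain ⟨K, hK⟩ := nl_lipschitz (W := WA d k) m (r := max (max R₁ R₂) 0) (le_max_right _ _)
  intro t ht
  have hd : ∀ s ∈ Icc 0 T, HasDerivWithinAt (fun s => Ug (-s) (U s) - Ug (-s) (V s))
      (Ug (-s) ((-I) • nl m (U s)) - Ug (-s) ((-I) • nl m (V s))) (Icc 0 T) s := fun s hs =>
    (duhamel hU hs).sub (duhamel hV hs)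
  have h1 := norm_le_gronwallBound_of_norm_deriv_right_le (K := K) (ε := 0)
    (δ := 0) (a := 0) (b := T) (fun s hs => (hd s hs).continuousWithinAt)
    (fun s hs => (hd s (Ico_subset_Icc_self hs)).mono_of_mem_nhdsWithin
      (Icc_mem_nhdsGE_of_mem hs))
    (by rw [h0, sub_self, norm_zero]) (fun s hs => by
      have hs' := Ico_subset_Icc_self hs
      rw [← map_sub, ← map_sub, norm_Ug, norm_Ug, ← smul_sub, norm_smul, norm_neg, Complex.norm_I,
        one_mul, add_zero, ← dist_eq_norm, ← dist_eq_norm]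
      refine hK.dist_le_mul _ ?_ _ ?_
      · rw [mem_closedBall_zero_iff]
        exact (h₁ s hs').trans ((le_max_left _ _).trans (le_max_left _ _))
      · rw [mem_closedBall_zero_iff]
        exact (h₂ s hs').trans ((le_max_right _ _).trans (le_max_left _ _))) t ht
  rw [gronwallBound_ε0_δ0, ← map_sub, norm_Ug] at h1
  exact sub_eq_zero.1 (norm_le_zero_iff.1 h1)

/-- Two solutions with the same datum agree as long as both are defined. -/
theorem sol_unique {k' : ℕ} (hk : d < 2 * k) (hk' : d < 2 * k') {T' : ℝ} {u v : ℝ → Lat d → ℂ}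
    (hu : IsSolution d (2 * m + 1) k T u) (hv : IsSolution d (2 * m + 1) k' T' v)
    (h0 : u 0 = v 0) {t : ℝ} (h : 0 ≤ t) (h1 : t ≤ T) (h2 : t ≤ T') : u t = v t := by
  have e := wsol_unique (wsol_mono (wsol0 hk hu) h1) (wsol_mono (wsol0 hk' hv) h2) (by
    ext n
    rw [coef_lift0 hk hu ⟨le_rfl, h.trans h1⟩, coef_lift0 hk' hv ⟨le_rfl, h.trans h2⟩, h0]) t
    ⟨h, le_rfl⟩
  funext n
  rw [← coef_lift0 hk hu ⟨h, h1⟩, e, coef_lift0 hk' hv ⟨h, h2⟩]

/-- The Wiener norm at most doubles on the time scale of the ordinary differential equation. -/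
theorem wsol_bound {U : ℝ → WA d k} (hU : IsWSol m T U) {N : ℝ} (hN : 0 < N) (h0 : ‖U 0‖ ≤ N)
    (hT : 2 * (2 * N) ^ (2 * m + 1) * T ≤ N) : ∀ t ∈ Icc 0 T, ‖U t‖ ≤ 2 * N := by
  have hc : 0 < (2 * N) ^ (2 * m + 1) := by positivity
  have hB : ∀ t ∈ Icc 0 T, N + 2 * (2 * N) ^ (2 * m + 1) * t ≤ 2 * N := fun t ht => by
    have := mul_le_mul_of_nonneg_left ht.2 (show 0 ≤ 2 * (2 * N) ^ (2 * m + 1) by positivity)
    linarith
  intro t ht
  have h1 := image_norm_le_of_norm_deriv_right_lt_deriv_boundary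
    (f := fun s => Ug (-s) (U s)) (f' := fun s => Ug (-s) ((-I) • nl m (U s))) (a := 0) (b := T)
    (fun s hs => (duhamel hU hs).continuousWithinAt)
    (fun s hs => (duhamel hU (Ico_subset_Icc_self hs)).mono_of_mem_nhdsWithin
      (Icc_mem_nhdsGE_of_mem hs))
    (B := fun s => N + 2 * (2 * N) ^ (2 * m + 1) * s) (B' := fun _ => 2 * (2 * N) ^ (2 * m + 1))
    (by rw [norm_Ug]; simpa using h0)
    (fun s => by simpa using ((hasDerivAt_id s).const_mul (2 * (2 * N) ^ (2 * m + 1))).const_add N)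
    (fun s hs he => by
      rw [norm_Ug] at he
      rw [norm_Ug, norm_smul, norm_neg, Complex.norm_I, one_mul]
      have h2 : ‖U s‖ ≤ 2 * N := he.le.trans (hB s (Ico_subset_Icc_self hs))
      have h3 : ‖U s‖ ^ (2 * m + 1) ≤ (2 * N) ^ (2 * m + 1) := by gcongr
      linarith [nl_norm_le m (U s)]) ht
  rw [norm_Ug] at h1
  exact h1.trans (hB t ht)

theorem norm_J (hk : d < 2 * k) (x : HS d) : ‖J hk x‖ = ∑' n, ‖cf k x n‖ := by
  rw [WA.norm_eq]
  exact tsum_congr fun n => by rw [W_zero_eq, one_mul, coef_J]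

theorem half' (hk : d < 2 * k) (x y : HS d) :
    ∑' n, (∑' j, ‖cf k x j‖ * ‖y (n - j)‖) ^ 2 ≤ (‖J hk x‖ * ‖y‖) ^ 2 := by
  have hy := hasSum_cf (k := k) y
  simp only [term_eq, om_mul_norm] at hy
  obtain ⟨-, -, h3⟩ := young (α := fun j => ‖cf k x j‖) (β := fun j => ‖y j‖)
    (fun _ => norm_nonneg _) (fun _ => norm_nonneg _)
    (summable_of_memSobolev hk (mem_cf x)) hy.summable
  refine h3.trans (le_of_eq ?_)
  rw [hy.tsum_eq, mul_pow, norm_J]

theorem norm_mulH' (hk : d < 2 * k) (x y : HS d) :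
    ‖mulH hk x y‖ ≤ 2 * 2 ^ k * (‖J hk x‖ * ‖y‖ + ‖J hk y‖ * ‖x‖) := by
  refine norm_le_of_sob (k := k) (by positivity) ?_
  have e : cf k (mulH hk x y) = coef (J hk x * J hk y) := funext fun n => cf_mkH _ _ n
  rw [e]
  refine ((mem_mul hk x y).tsum_le_tsum (mul_term hk x y)
    (((half hk x y).2.1.add (half hk y x).2.1).mul_left _)).trans ?_
  rw [tsum_mul_left, (half hk x y).2.1.tsum_add (half hk y x).2.1]
  have h1 := half' hk x y
  have h2 := half' hk y x
  have h3 : 0 ≤ ‖J hk x‖ * ‖y‖ := by positivity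
  have h4 : 0 ≤ ‖J hk y‖ * ‖x‖ := by positivity
  have h5 : (0 : ℝ) ≤ (2 ^ k) ^ 2 := by positivity
  calc _ ≤ 2 * ((2 : ℝ) ^ k) ^ 2 * ((‖J hk x‖ * ‖y‖) ^ 2 + (‖J hk y‖ * ‖x‖) ^ 2) := by gcongr
    _ ≤ 2 * ((2 : ℝ) ^ k) ^ 2 * (2 * (‖J hk x‖ * ‖y‖ + ‖J hk y‖ * ‖x‖) ^ 2) := by
        gcongr
        nlinarith [mul_nonneg h3 h4]
    _ = _ := by ring

/-- The tame estimate. -/
theorem tame_NH (hk : d < 2 * k) (m : ℕ) {R : ℝ} (hR : 0 ≤ R) : ∃ K : ℝ, 0 ≤ K ∧
    ∀ x : HS d, ‖J hk x‖ ≤ R → ‖NH hk m x‖ ≤ K * ‖x‖ := by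
  induction m with
  | zero => exact ⟨1, zero_le_one, fun x _ => by simp [NH]⟩
  | succ m ih =>
    obtain ⟨K, hK0, hK⟩ := ih
    refine ⟨2 * 2 ^ k * (R * (2 * 2 ^ k * (R * K + R ^ (2 * m + 1))) + R * R ^ (2 * m + 1)),
      by positivity, fun x hx => ?_⟩
    have a1 : ‖J hk (stH hk x)‖ ≤ R := by
      rw [J_stH, ← star_eq, norm_star]
      exact hx
    have a2 : ‖J hk (NH hk m x)‖ ≤ R ^ (2 * m + 1) := by
      rw [J_NH, ← nl_eq_F]
      exact (nl_norm_le m _).trans (by gcongr)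
    have a3 : ‖J hk (mulH hk (stH hk x) (NH hk m x))‖ ≤ R * R ^ (2 * m + 1) := by
      rw [J_mulH]
      exact (norm_mul_le _ _).trans (by gcongr)
    have a4 : ‖mulH hk (stH hk x) (NH hk m x)‖
        ≤ 2 * 2 ^ k * (R * (K * ‖x‖) + R ^ (2 * m + 1) * ‖x‖) := by
      refine (norm_mulH' hk _ _).trans ?_
      gcongr
      · exact hK x hx
      · exact norm_stH hk x
    rw [NH]
    refine (norm_mulH' hk _ _).trans ?_
    calc _ ≤ 2 * 2 ^ k * (R * (2 * 2 ^ k * (R * (K * ‖x‖) + R ^ (2 * m + 1) * ‖x‖))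
          + R * R ^ (2 * m + 1) * ‖x‖) := by gcongr
      _ = _ := by ring

open Classical in
/-- The curve in the Sobolev space. -/
noncomputable def liftH (k : ℕ) (u : ℝ → Lat d → ℂ) (t : ℝ) : HS d :=
  if h : MemSobolev k (u t) then mkH (u t) h else 0

theorem cf_liftH {u : ℝ → Lat d → ℂ} {t : ℝ} (h : MemSobolev k (u t)) :
    cf k (liftH k u t) = u t := by
  funext n
  unfold liftH
  rw [dif_pos h, cf_mkH]

theorem cont_liftH {p : ℕ} {u : ℝ → Lat d → ℂ} (hu : IsSolution d p k T u) :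
    ContinuousOn (liftH k u) (Icc 0 T) := by
  intro t ht
  rw [ContinuousWithinAt, tendsto_iff_norm_sub_tendsto_zero]
  have h1 := (hu.cont t ht).sqrt
  rw [Real.sqrt_zero] at h1
  refine h1.congr' ?_
  filter_upwards [self_mem_nhdsWithin] with s hs
  have e : (fun n => u s n - u t n) = cf k (liftH k u s - liftH k u t) := by
    funext n
    rw [cf_sub, cf_liftH (hu.mem s hs), cf_liftH (hu.mem t ht)]
  rw [e, sob_cf, Real.sqrt_sq (norm_nonneg _)]

theorem J_liftH (hk : d < 2 * k) {p : ℕ} {u : ℝ → Lat d → ℂ} (hu : IsSolution d p k T u)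
    {t : ℝ} (ht : t ∈ Icc 0 T) : J hk (liftH k u t) = lift 0 u t := by
  ext n
  rw [coef_J, cf_liftH (hu.mem t ht), coef_lift0 hk hu ht]

theorem duhamelH (hk : d < 2 * k) {u : ℝ → Lat d → ℂ} (hu : IsSolution d (2 * m + 1) k T u)
    {t : ℝ} (ht : t ∈ Icc 0 T) :
    HasDerivWithinAt (fun s => U (-s) (liftH k u s)) (U (-t) ((-I) • NH hk m (liftH k u t)))
      (Icc 0 T) t := by
  have hT : 0 ≤ T := ht.1.trans ht.2
  have hX := cont_liftH hu
  have hN : ContinuousOn (fun s => NH hk m (liftH k u s)) (Icc 0 T) := by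
    obtain ⟨R, hR⟩ := isCompact_Icc.exists_bound_of_continuousOn hX
    obtain ⟨L, -, -, hL⟩ := NH_bound hk m (R := max R 0) (le_max_right _ _)
    intro s hs
    rw [ContinuousWithinAt, tendsto_iff_norm_sub_tendsto_zero]
    have h3 := (tendsto_iff_norm_sub_tendsto_zero.1 (hX s hs)).const_mul L
    rw [mul_zero] at h3
    refine squeeze_zero' (Eventually.of_forall fun _ => norm_nonneg _) ?_ h3
    filter_upwards [self_mem_nhdsWithin] with r hr
    exact hL _ _ ((hR r hr).trans (le_max_left _ _)) ((hR s hs).trans (le_max_left _ _))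
  have hG : ContinuousOn (fun s => U (-s) ((-I) • NH hk m (liftH k u s))) (Icc 0 T) :=
    continuousOn_U continuous_neg (hN.const_smul (-I))
  let G : ℝ → HS d :=
    IccExtend hT ((Icc 0 T).domRestrict fun s => U (-s) ((-I) • NH hk m (liftH k u s)))
  have hGc : Continuous G := hG.domRestrict.Icc_extend'
  have hGt : ∀ s ∈ Icc 0 T, G s = U (-s) ((-I) • NH hk m (liftH k u s)) := fun s hs => by
    simp only [G, IccExtend_of_mem hT _ hs, domRestrict_apply]
  have hW := wsol0 hk hu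
  have hc : ∀ n, ∀ s ∈ Icc 0 T, HasDerivWithinAt (fun s => cf k (U (-s) (liftH k u s)) n)
      (cf k (G s) n) (Icc 0 T) s := by
    intro n s hs
    have h1 := (coefR n).hasFDerivAt.comp_hasDerivWithinAt s (duhamel hW hs)
    have h2 : cf k (G s) n = coef (Ug (-s) ((-I) • nl m (lift 0 u s))) n := by
      rw [hGt s hs, cf_U, cf_smul, coef_Ug, coef_smul, ← coef_J hk, J_NH, J_liftH hk hu hs,
        nl_eq_F]
      rfl
    rw [h2]
    refine HasDerivWithinAt.congr h1 (fun r hr => ?_) ?_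
    · show _ = coef (Ug (-r) (lift 0 u r)) n
      rw [cf_U, coef_Ug, cf_liftH (hu.mem r hr), coef_lift0 hk hu hr]
      rfl
    · show _ = coef (Ug (-s) (lift 0 u s)) n
      rw [cf_U, coef_Ug, cf_liftH (hu.mem s hs), coef_lift0 hk hu hs]
      rfl
  have key : ∀ s ∈ Icc 0 T,
      U (-s) (liftH k u s) = U (-0) (liftH k u 0) + ∫ r in (0 : ℝ)..s, G r := by
    intro s hs
    refine cf_ext (k := k) fun n => ?_
    rw [cf_add]
    have h1 : cf k (∫ r in (0 : ℝ)..s, G r) n = ∫ r in (0 : ℝ)..s, cf k (G r) n :=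
      ((cfL k n).intervalIntegral_comp_comm (hGc.intervalIntegrable _ _)).symm
    have hsub : Icc 0 s ⊆ Icc 0 T := Icc_subset_Icc_right hs.2
    have h2 : ∫ r in (0 : ℝ)..s, cf k (G r) n
        = cf k (U (-s) (liftH k u s)) n - cf k (U (-0) (liftH k u 0)) n := by
      refine intervalIntegral.integral_eq_sub_of_hasDeriv_right_of_le
        (f := fun s => cf k (U (-s) (liftH k u s)) n) hs.1
        (fun r hr => ((hc n r (hsub hr)).continuousWithinAt).mono hsub) (fun r hr => ?_)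
        (((cfL k n).continuous.comp hGc).intervalIntegrable _ _)
      have h3 : Icc 0 T ∈ 𝓝 r := Icc_mem_nhds hr.1 (hr.2.trans_le hs.2)
      exact ((hc n r (hsub (Ioo_subset_Icc_self hr))).hasDerivAt h3).hasDerivWithinAt
    rw [h1, h2]
    ring
  have h4 : HasDerivAt (fun s => U (-0) (liftH k u 0) + ∫ r in (0 : ℝ)..s, G r) (G t) t :=
    (intervalIntegral.integral_hasDerivAt_right (hGc.intervalIntegrable _ _)
      (hGc.stronglyMeasurableAtFilter _ _) hGc.continuousAt).const_add _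
  rw [← hGt t ht]
  exact h4.hasDerivWithinAt.congr key (key t ht)

/-- A bound for the Wiener norm gives a bound for the Sobolev norm. -/
theorem sob_bound (hk : d < 2 * k) (m : ℕ) {R : ℝ} (hR : 0 ≤ R) : ∃ K : ℝ, 0 ≤ K ∧
    ∀ (T : ℝ) (u : ℝ → Lat d → ℂ), 0 ≤ T → IsSolution d (2 * m + 1) k T u →
      (∀ t ∈ Icc 0 T, ‖lift 0 u t‖ ≤ R) →
      sobolevSq k (u T) ≤ sobolevSq k (u 0) * Real.exp (K * T) ^ 2 := by
  obtain ⟨K, hK0, hK⟩ := tame_NH hk m hR
  refine ⟨K, hK0, fun T u hT hu hb => ?_⟩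
  have h1 := norm_le_gronwallBound_of_norm_deriv_right_le (K := K) (ε := 0)
    (δ := ‖liftH k u 0‖) (a := 0) (b := T) (fun s hs => (duhamelH hk hu hs).continuousWithinAt)
    (fun s hs => (duhamelH hk hu (Ico_subset_Icc_self hs)).mono_of_mem_nhdsWithin
      (Icc_mem_nhdsGE_of_mem hs))
    (by rw [norm_U]) (fun s hs => by
      have hs' := Ico_subset_Icc_self hs
      rw [norm_U, norm_U, norm_smul, norm_neg, Complex.norm_I, one_mul, add_zero]
      exact hK _ (by rw [J_liftH hk hu hs']; exact hb s hs')) T ⟨hT, le_rfl⟩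
  rw [norm_U, gronwallBound_ε0, sub_zero] at h1
  rw [← cf_liftH (hu.mem T ⟨hT, le_rfl⟩), ← cf_liftH (hu.mem 0 ⟨le_rfl, hT⟩), sob_cf, sob_cf,
    ← mul_pow]
  gcongr

/-- The lifespan is at least the time scale given by the Wiener norm. -/
theorem lifespan_lower (hk : d < 2 * k) {a : Lat d → ℂ} (ha : MemSobolev k a) {N : ℝ} (hN : 0 < N)
    (h : ∑' n, ‖a n‖ ≤ N) :
    ENNReal.ofReal (1 / (4 * (2 * N) ^ (2 * m))) ≤ lifespan d (2 * m + 1) k a := by
  by_contra hcon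
  have hlt := not_le.1 hcon
  obtain ⟨K, hK0, hK⟩ := sob_bound hk m (R := 2 * N) (by positivity)
  obtain ⟨T, u, hT, hu, hu0, hM⟩ := blowup_alternative hk ha (ne_top_of_lt hlt)
    (sobolevSq k a * Real.exp (K * (1 / (4 * (2 * N) ^ (2 * m)))) ^ 2 + 1)
  have h1 : T ≤ 1 / (4 * (2 * N) ^ (2 * m)) := by
    have h2 := (lifespan_ge hT ⟨u, hu0, hu⟩).trans hlt.le
    exact (ENNReal.ofReal_le_ofReal_iff (by positivity)).1 h2
  have h3 : ‖lift 0 u 0‖ ≤ N := by
    rw [WA.norm_eq]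
    refine le_trans (le_of_eq (tsum_congr fun n => ?_)) h
    rw [W_zero_eq, one_mul, coef_lift0 hk hu ⟨le_rfl, hT⟩, hu0]
  have h4 := wsol_bound (wsol0 hk hu) hN h3 (by
    rw [le_div_iff₀ (by positivity)] at h1
    have h5 := mul_le_mul_of_nonneg_left h1 hN.le
    rw [pow_succ]
    linarith)
  have h5 := hK T u hT hu h4
  rw [hu0] at h5
  have h6 : sobolevSq k a * Real.exp (K * T) ^ 2
      ≤ sobolevSq k a * Real.exp (K * (1 / (4 * (2 * N) ^ (2 * m)))) ^ 2 := by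
    have := sobolevSq_nonneg (k := k) a
    gcongr
  linarith

/-- Continuation of a solution. -/
theorem lifespan_cont (hk : d < 2 * k) {u : ℝ → Lat d → ℂ} (hT : 0 ≤ T)
    (hu : IsSolution d (2 * m + 1) k T u) {N : ℝ} (hN : 0 < N) (h : ∑' n, ‖u T n‖ ≤ N) :
    ENNReal.ofReal (T + 1 / (8 * (2 * N) ^ (2 * m))) ≤ lifespan d (2 * m + 1) k (u 0) := by
  have h1 := lifespan_lower (m := m) hk (hu.mem T ⟨hT, le_rfl⟩) hN h
  have h2 : ENNReal.ofReal (1 / (8 * (2 * N) ^ (2 * m)))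
      < ENNReal.ofReal (1 / (4 * (2 * N) ^ (2 * m))) := by
    rw [ENNReal.ofReal_lt_ofReal_iff (by positivity)]
    refine one_div_lt_one_div_of_lt (by positivity) ?_
    have : 0 < (2 * N) ^ (2 * m) := by positivity
    linarith
  have h3 := h2.trans_le h1
  unfold lifespan at h3
  obtain ⟨T', hT'⟩ := lt_iSup_iff.1 h3
  obtain ⟨⟨v, hv, hv0⟩, h4⟩ := lt_iSup_iff.1 hT'
  have h5 := lifespan_ge (a := u 0) (add_nonneg hT T'.coe_nonneg)
    ⟨_, by simp only [if_pos hT], glue hT T'.coe_nonneg hu hv hv0⟩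
  refine le_trans (ENNReal.ofReal_le_ofReal ?_) h5
  rw [← ENNReal.ofReal_coe_nnreal, ENNReal.ofReal_lt_ofReal_iff'] at h4
  linarith [h4.1]

end Vale.Agent.N139
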