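import Vale.Agent.N139.Step
import Vale.Agent.N139.Cont

/-! Iteration: the solution stays close to the rescaled profile during its whole life. -/

open Set Filter Topology MeasureTheory Complex
open scoped NNReal ENNReal ComplexConjugate ContDiff

namespace Vale.Agent.N139

open Vale.Agent.P139 Vale.Agent.P139.A Vale.Agent.P139.A.WA Vale.Agent.P139Z
open Vale.Agent.P139Z.XW Vale.Agent.P139Z.Step Vale.Agent.P139Z.Blow

variable {d k m : ℕ}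

/-- The property that is iterated. -/
def StepP (B : Bg d m) (k : ℕ) (δ lam₀ τ : ℝ) : Prop :=
  ∀ lam : ℝ, 0 < lam → lam ≤ lam₀ → ∀ (T : ℝ) (U : ℝ → WA d k), IsWSol m T U →
    B.dist k lam (U 0) ≤ δ → tim lam τ ≤ T → ∃ lam' : ℝ, 0 < lam' ∧ lam' ≤ lam / 2 ∧
      ∃ (x : Fin d → ℝ) (w : ℂ), ‖w‖ = 1 ∧ B.dist k lam' (w • shift x (U (tim lam τ))) ≤ δ

theorem iter (B : Bg d m) (hm : 1 ≤ m) {δ lam₀ τ : ℝ} (hδ : δ ≤ ‖evf B.Q 0‖ / 2) (hτ : 0 ≤ τ)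
    (H : StepP B k δ lam₀ τ) {lam₁ : ℝ} (h1 : 0 < lam₁) (h2 : lam₁ ≤ lam₀) {T : ℝ} (hT : 0 ≤ T)
    {U : ℝ → WA d k} (hU : IsWSol m T U) (h0 : B.dist k lam₁ (U 0) ≤ δ) :
    ∃ lam : ℝ, 0 < lam ∧ lam ≤ lam₁ ∧ ∃ t ∈ Icc 0 T, t + 2 * lam ^ 2 ≤ 2 * lam₁ ^ 2 ∧
      T - t < tim lam τ ∧ ∃ (x : Fin d → ℝ) (w : ℂ), ‖w‖ = 1 ∧
        B.dist k lam (w • shift x (U t)) ≤ δ := by
  by_contra hcon
  have hq : 0 < ‖evf B.Q 0‖ := norm_pos_iff.2 B.q_zero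
  have hind : ∀ j : ℕ, ∃ lam : ℝ, 0 < lam ∧ lam ≤ lam₁ * (1 / 2) ^ j ∧ ∃ t ∈ Icc 0 T,
      t + 2 * lam ^ 2 ≤ 2 * lam₁ ^ 2 ∧ ∃ (x : Fin d → ℝ) (w : ℂ), ‖w‖ = 1 ∧
        B.dist k lam (w • shift x (U t)) ≤ δ := by
    intro j
    induction j with
    | zero =>
      refine ⟨lam₁, h1, by simp, 0, ⟨le_rfl, hT⟩, by simp, 0, 1, norm_one, ?_⟩
      rw [one_smul, shift_zero]
      exact h0
    | succ j ih =>
      obtain ⟨lam, a1, a2, t, ht, ht1, x, w, hw, hd⟩ := ih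
      have a3 : lam ≤ lam₁ := by
        refine a2.trans ?_
        have : ((1 : ℝ) / 2) ^ j ≤ 1 := pow_le_one₀ (by norm_num) (by norm_num)
        nlinarith
      have a4 : tim lam τ ≤ T - t :=
        not_lt.1 fun h => hcon ⟨lam, a1, a3, t, ht, ht1, h, x, w, hw, hd⟩
      have a5 := isWSol_sym hU ht.1 (τ := T - t) (by linarith) x hw
      obtain ⟨lam', h5, h6, x', w', hw', hd'⟩ :=
        H lam a1 (a3.trans h2) _ _ a5 (by simpa only [add_zero] using hd) a4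
      have hs := tim_mem (lam := lam) hτ
      refine ⟨lam', h5, ?_, t + tim lam τ, ⟨by linarith [ht.1, hs.1], by linarith⟩, ?_,
        x' + x, w' * w, ?_, ?_⟩
      · rw [pow_succ]
        linarith
      · have : lam' ^ 2 ≤ (lam / 2) ^ 2 := by gcongr
        nlinarith [hs.2, sq_nonneg lam]
      · rw [norm_mul, hw, hw', one_mul]
      · rwa [map_smul, smul_smul, shift_shift] at hd'
  obtain ⟨R, hR⟩ := isCompact_Icc.exists_bound_of_continuousOn hU.cont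
  have hm0 : (0 : ℝ) < (m : ℝ)⁻¹ := by
    have : (0 : ℝ) < m := by exact_mod_cast hm
    positivity
  have hlim : Tendsto (fun j : ℕ => Real.exp ((m : ℝ)⁻¹ * Real.log (lam₁ * (1 / 2) ^ j)) * R)
      atTop (𝓝 0) := by
    have b1 : Tendsto (fun j : ℕ => lam₁ * (1 / 2 : ℝ) ^ j) atTop (𝓝[>] 0) := by
      refine tendsto_nhdsWithin_iff.2 ⟨?_, Eventually.of_forall fun j => ?_⟩
      · simpa using (tendsto_pow_atTop_nhds_zero_of_lt_one (r := (1 / 2 : ℝ)) (by norm_num)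
          (by norm_num)).const_mul lam₁
      · show 0 < lam₁ * (1 / 2 : ℝ) ^ j
        positivity
    have b2 := Real.tendsto_exp_atBot.comp
      ((Real.tendsto_log_nhdsGT_zero.comp b1).const_mul_atBot hm0)
    simpa only [Function.comp_def, zero_mul] using b2.mul_const R
  obtain ⟨j, hj⟩ := (hlim.eventually (gt_mem_nhds (half_pos hq))).exists
  obtain ⟨lam, a1, a2, t, ht, -, x, w, hw, hd⟩ := hind j
  have h3 := B.lower_of_dist a1 hd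
  rw [norm_smul, hw, one_mul, norm_shift] at h3
  have h4 : ‖U t‖ ≤ R := hR t ht
  have h5 : Real.exp ((m : ℝ)⁻¹ * Real.log lam) * ‖U t‖
      ≤ Real.exp ((m : ℝ)⁻¹ * Real.log (lam₁ * (1 / 2) ^ j)) * R := by gcongr
  linarith

theorem short (B : Bg d m) (hm : 1 ≤ m) {δ lam₀ τ : ℝ} (hδ : δ ≤ ‖evf B.Q 0‖ / 2) (hτ : 0 ≤ τ)
    (H : StepP B k δ lam₀ τ) {lam₁ : ℝ} (h1 : 0 < lam₁) (h2 : lam₁ ≤ lam₀) {T : ℝ}
    {U : ℝ → WA d k} (hU : IsWSol m T U) (h0 : B.dist k lam₁ (U 0) ≤ δ) : T ≤ 2 * lam₁ ^ 2 := by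
  rcases lt_or_ge T 0 with hT | hT
  · nlinarith [sq_nonneg lam₁]
  obtain ⟨lam, -, -, t, -, a1, a2, -⟩ := iter B hm hδ hτ H h1 h2 hT hU h0
  nlinarith [(tim_mem (lam := lam) hτ).2, sq_nonneg lam]

theorem near (B : Bg d m) (hm : 1 ≤ m) {δ lam₀ τ η : ℝ} (hδ : δ ≤ ‖evf B.Q 0‖ / 2) (hτ : 0 ≤ τ)
    (H : StepP B k δ lam₀ τ)
    (H' : ∀ lam : ℝ, 0 < lam → lam ≤ lam₀ → ∀ (T : ℝ) (U : ℝ → WA d k), IsWSol m T U →
      B.dist k lam (U 0) ≤ δ → ∀ s ∈ Icc 0 τ, tim lam s ≤ T →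
        B.dist k (rho lam s) (U (tim lam s)) ≤ η)
    {lam₁ : ℝ} (h1 : 0 < lam₁) (h2 : lam₁ ≤ lam₀) {T : ℝ} (hT : 0 ≤ T)
    {U : ℝ → WA d k} (hU : IsWSol m T U) (h0 : B.dist k lam₁ (U 0) ≤ δ) :
    ∃ ρ : ℝ, 0 < ρ ∧ ρ ≤ lam₁ ∧
      (∃ (x : Fin d → ℝ) (w : ℂ), ‖w‖ = 1 ∧ B.dist k ρ (w • shift x (U T)) ≤ η) ∧
      ∀ (T' : ℝ) (V : ℝ → WA d k), IsWSol m T' V → V 0 = U 0 →
        T' ≤ T + 2 * Real.exp τ * ρ ^ 2 := by
  obtain ⟨lam, a1, a2, t, ht, -, a3, x, w, hw, hd⟩ := iter B hm hδ hτ H h1 h2 hT hU h0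
  have hc : ContinuousOn (tim lam) (Icc 0 τ) := fun s _ =>
    (hasDerivAt_tim lam s).continuousAt.continuousWithinAt
  obtain ⟨s, hs, hst⟩ := intermediate_value_Icc hτ hc
    (show T - t ∈ Icc (tim lam 0) (tim lam τ) from ⟨by rw [tim_zero]; linarith [ht.2], a3.le⟩)
  have a5 := isWSol_sym hU ht.1 (τ := T - t) (by linarith) x hw
  have a6 := H' lam a1 (a2.trans h2) _ _ a5 (by simpa only [add_zero] using hd) s hs hst.le
  rw [hst, add_sub_cancel] at a6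
  refine ⟨rho lam s, rho_pos a1 s, (rho_le a1.le hs.1).trans a2, ⟨x, w, hw, a6⟩,
    fun T' V hV hV0 => ?_⟩
  have b0 : 0 ≤ 2 * Real.exp τ * rho lam s ^ 2 := by positivity
  rcases le_total T' T with h | h
  · linarith
  have b1 : V t = U t := wsol_unique (wsol_mono hV h) hU hV0 t ht
  have b2 := isWSol_sym hV ht.1 (τ := T' - t) (by linarith) x hw
  have b3 := short B hm hδ hτ H a1 (a2.trans h2) b2 (by simpa only [add_zero, b1] using hd)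
  have b4 : lam ^ 2 ≤ Real.exp τ * rho lam s ^ 2 := by
    rw [rho_sq, mul_left_comm, ← Real.exp_add]
    exact le_mul_of_one_le_right (sq_nonneg _) (Real.one_le_exp (by linarith [hs.2]))
  have b5 : tim lam s + rho lam s ^ 2 = lam ^ 2 := by unfold tim; ring
  nlinarith [ht.2]

theorem ev_eq_tsum (a : WA d k) (y : Fin d → ℝ) : WA.ev a y = ∑' n, coef (shift y a) n := by
  unfold WA.ev series
  exact tsum_congr fun n => by rw [coef_shift, mul_comm]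

theorem norm_ev_le {ρ : ℝ} (hρ : 0 ≤ ρ) (a : WA d k) (y : Fin d → ℝ) :
    ‖WA.ev a y‖ ≤ nrm ρ k a := by
  rw [ev_eq_tsum, ← nrm_shift ρ k y a]
  exact norm_tsum_le_nrm hρ _

theorem ev_transl (y : Eu d) (F : XW d k) : XW.ev (transl y F) 0 = XW.ev F y := by
  unfold XW.ev evf
  refine integral_congr_ae ?_
  filter_upwards [fn_transl y F] with ξ h
  rw [h]
  simp [dot]

theorem ev_per {ρ : ℝ} (hρ : 0 < ρ) (hρ1 : ρ ≤ 1) (F : XW d k) (y : Eu d) :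
    ‖WA.ev (per ρ F) (fun i => ρ * y i) - XW.ev F y‖ ≤ (d : ℝ) * 2 ^ k * ρ * ‖y‖ * ‖F‖ := by
  have hs : ∀ b : WA d k, Summable fun n => coef b n := fun b => b.summable_norm.of_norm
  have h1 := (norm_tsum_le_nrm hρ.le _).trans (nrm_shift_per hρ hρ1 y F)
  simp_rw [coef_sub] at h1
  rwa [(hs _).tsum_sub (hs _), tsum_coef_per hρ, ev_transl, ← ev_eq_tsum] at h1

theorem scale_pow (B : Bg d m) (hm : 1 ≤ m) {ρ : ℝ} (hρ : 0 < ρ) :
    ‖cexp (2 * B.Λ * Real.log ρ)‖ ^ (2 * m) = ρ ^ 2 := by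
  have hm' : (m : ℝ) ≠ 0 := by positivity
  rw [B.norm_scale, ← Real.exp_nat_mul]
  have h2 : ((2 * m : ℕ) : ℝ) * ((m : ℝ)⁻¹ * Real.log ρ) = (2 : ℕ) * Real.log ρ := by
    push_cast
    field_simp
  rw [h2, Real.exp_nat_mul, Real.exp_log hρ]

/-- An open set of data whose solutions blow up early, at the self-similar rate and with a
profile close to the given one. -/
theorem det (B : Bg d m) (hm : 1 ≤ m) (hk : 8 * B.K0 + 8 ≤ k) (hL : B.LIN k) :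
    ∃ c C : ℝ, 0 < c ∧ 0 < C ∧ ∀ η T₀ : ℝ, 0 < η → 0 < T₀ →
      ∃ (φ : Lat d → ℂ) (ε : ℝ), 0 < ε ∧ (Summable fun n => W k n * ‖φ n‖) ∧
      ∀ a : Lat d → ℂ, (Summable fun n => W (k + 1) n * ‖a n‖) →
        ∑' n, W k n * ‖a n - φ n‖ < ε → ∀ k' : ℕ, d < 2 * k' →
        ∃ Ts : ℝ, 0 ≤ Ts ∧ Ts ≤ T₀ ∧ lifespan d (2 * m + 1) k' a = ENNReal.ofReal Ts ∧
          ∀ (T : ℝ) (u : ℝ → Lat d → ℂ), 0 ≤ T → IsSolution d (2 * m + 1) k' T u → u 0 = a →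
            ∃ (ρ : ℝ) (x : Fin d → ℝ) (z : ℂ), 0 < ρ ∧ c * ρ ^ 2 ≤ Ts - T ∧ Ts - T ≤ C * ρ ^ 2 ∧
              ‖z‖ ^ (2 * m) = ρ ^ 2 ∧ (∀ x', ‖z‖ * ‖series (u T) x'‖ ≤ C) ∧
              ∀ y : Eu d, ‖z * series (u T) (fun i => x i + ρ * y i) - evf B.Q y‖
                ≤ η * (1 + ‖y‖) := by
  obtain ⟨δ₀, τ, A, hδ₀, hτ, hA, H⟩ := one_step' B hm hk hL
  have hq : 0 < ‖evf B.Q 0‖ := norm_pos_iff.2 B.q_zero
  have hN := norm_nonneg (B.Qh k)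
  obtain ⟨C₁, hC₁⟩ : ∃ C₁ : ℝ, C₁ = 1 + 2 ^ k * ‖B.Qh k‖ := ⟨_, rfl⟩
  have hC₁0 : 0 < C₁ := by rw [hC₁]; positivity
  refine ⟨1 / (8 * (2 * C₁) ^ (2 * m)), max C₁ (2 * Real.exp τ), by positivity,
    lt_max_of_lt_left hC₁0, fun η T₀ hη hT₀ => ?_⟩
  obtain ⟨δ, hδ⟩ : ∃ δ : ℝ, δ = min δ₀ (min (‖evf B.Q 0‖ / 2) (min η 1 / A)) := ⟨_, rfl⟩
  have hδ0 : 0 < δ := by rw [hδ]; positivity
  have hδq : δ ≤ ‖evf B.Q 0‖ / 2 := hδ ▸ (min_le_right _ _).trans (min_le_left _ _)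
  have hδA : A * δ ≤ min η 1 := by
    have h : δ ≤ min η 1 / A := hδ ▸ (min_le_right _ _).trans (min_le_right _ _)
    rwa [le_div_iff₀ hA, mul_comm] at h
  obtain ⟨lam₀, hl0, hl1, H1⟩ := H δ hδ0 (hδ ▸ min_le_left _ _)
  have HS : StepP B k δ lam₀ τ := fun lam a1 a2 T U hU h0 => (H1 lam a1 a2 T U hU h0).2
  obtain ⟨lam₁, hlam₁⟩ : ∃ l : ℝ,
      l = min lam₀ (min (Real.sqrt (T₀ / 2)) (η / ((d : ℝ) * 2 ^ k * ‖B.Qh k‖ + 1))) := ⟨_, rfl⟩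
  have g0 : 0 < lam₁ := by rw [hlam₁]; positivity
  have g1 : lam₁ ≤ lam₀ := hlam₁ ▸ min_le_left _ _
  have g2 : 2 * lam₁ ^ 2 ≤ T₀ := by
    have h : lam₁ ≤ Real.sqrt (T₀ / 2) := hlam₁ ▸ (min_le_right _ _).trans (min_le_left _ _)
    have h' := pow_le_pow_left₀ g0.le h 2
    rw [Real.sq_sqrt (by positivity)] at h'
    linarith
  have g3 : (d : ℝ) * 2 ^ k * lam₁ * ‖B.Qh k‖ ≤ η := by
    have h : lam₁ ≤ η / ((d : ℝ) * 2 ^ k * ‖B.Qh k‖ + 1) :=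
      hlam₁ ▸ (min_le_right _ _).trans (min_le_right _ _)
    rw [le_div_iff₀ (by positivity)] at h
    nlinarith
  obtain ⟨c, hc⟩ : ∃ c : ℂ, c = cexp (2 * B.Λ * Real.log lam₁) := ⟨_, rfl⟩
  have hc0 : c ≠ 0 := hc ▸ Complex.exp_ne_zero _
  have hcn : 0 < ‖c‖ := norm_pos_iff.2 hc0
  refine ⟨coef (c⁻¹ • per lam₁ (B.Qh k)), δ / ‖c‖, by positivity, WA.summable _,
    fun a ha hε k' hk' => ?_⟩
  have key : ∀ (T : ℝ) (u : ℝ → Lat d → ℂ), 0 ≤ T → IsSolution d (2 * m + 1) k' T u → u 0 = a →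
      ∃ U : ℝ → WA d k, IsWSol m T U ∧ (∀ t ∈ Icc 0 T, coef (U t) = u t) ∧
        B.dist k lam₁ (U 0) ≤ δ := by
    intro T u hT hu hu0
    obtain ⟨U, hU, hUu⟩ := exists_isWSol hk' hu k (by rw [hu0]; exact ha)
    refine ⟨U, hU, fun t ht => funext (hUu t ht), ?_⟩
    have e : c • U 0 - per lam₁ (B.Qh k) = c • (U 0 - c⁻¹ • per lam₁ (B.Qh k)) := by
      rw [smul_sub, smul_smul, mul_inv_cancel₀ hc0, one_smul]
    have h1 : nrm lam₁ k (U 0 - c⁻¹ • per lam₁ (B.Qh k)) ≤ δ / ‖c‖ := by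
      refine (nrm_scale_le (ρ := 1) (c := 1) zero_le_one g0.le le_rfl (by linarith) le_rfl
        _).trans ?_
      rw [one_pow, one_mul, nrm_one, WA.norm_eq]
      refine le_trans (le_of_eq (tsum_congr fun n => ?_)) hε.le
      rw [coef_sub, hUu 0 ⟨le_rfl, hT⟩, hu0]
    unfold Bg.dist
    rw [← hc, e, nrm_smul]
    rwa [le_div_iff₀ hcn, mul_comm] at h1
  have up : ∀ S : ℝ, (∀ (T : ℝ) (u : ℝ → Lat d → ℂ), 0 ≤ T → IsSolution d (2 * m + 1) k' T u →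
      u 0 = a → T ≤ S) → lifespan d (2 * m + 1) k' a ≤ ENNReal.ofReal S := by
    intro S hS
    unfold lifespan
    refine iSup₂_le fun T hT => ?_
    obtain ⟨u, hu, hu0⟩ := hT
    rw [← ENNReal.ofReal_coe_nnreal]
    exact ENNReal.ofReal_le_ofReal (hS T u T.2 hu hu0)
  have fin : lifespan d (2 * m + 1) k' a ≤ ENNReal.ofReal T₀ := up T₀ fun T u hT hu hu0 => by
    obtain ⟨U, hU, -, hd⟩ := key T u hT hu hu0
    exact (short B hm hδq hτ.le HS g0 g1 hU hd).trans g2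
  have hne : lifespan d (2 * m + 1) k' a ≠ ⊤ := ne_top_of_le_ne_top ENNReal.ofReal_ne_top fin
  refine ⟨(lifespan d (2 * m + 1) k' a).toReal, ENNReal.toReal_nonneg,
    ENNReal.toReal_le_of_le_ofReal hT₀.le fin, (ENNReal.ofReal_toReal hne).symm,
    fun T u hT hu hu0 => ?_⟩
  obtain ⟨U, hU, hUu, hd⟩ := key T u hT hu hu0
  obtain ⟨ρ, r0, r1, ⟨x, w, hw, hdist⟩, hext⟩ := near B hm hδq hτ.le HS
    (fun lam a1 a2 T U hU h0 => (H1 lam a1 a2 T U hU h0).1) g0 g1 hT hU hd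
  have r2 : ρ ≤ 1 := r1.trans (g1.trans hl1)
  obtain ⟨e, he⟩ : ∃ e : ℂ, e = cexp (2 * B.Λ * Real.log ρ) := ⟨_, rfl⟩
  have he0 : 0 < ‖e‖ := norm_pos_iff.2 (he ▸ Complex.exp_ne_zero _)
  have hz : ‖e * w‖ = ‖e‖ := by rw [norm_mul, hw, mul_one]
  have hp : ‖e‖ ^ (2 * m) = ρ ^ 2 := he ▸ scale_pow B hm r0
  unfold Bg.dist at hdist
  rw [← he, smul_smul] at hdist
  have hW : ‖e‖ * ∑' n, ‖u T n‖ ≤ C₁ := by
    have e2 : (e * w) • shift x (U T)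
        = per ρ (B.Qh k) + ((e * w) • shift x (U T) - per ρ (B.Qh k)) := by abel
    have h1 : nrm ρ k ((e * w) • shift x (U T)) ≤ C₁ := by
      rw [e2, hC₁]
      refine (nrm_add_le r0.le le_rfl _ _).trans ?_
      linarith [nrm_per_le r0 r2 (B.Qh k), hδA.trans (min_le_right _ _)]
    have h2 := (nrm_mono_order r0.le (Nat.zero_le k) le_rfl _).trans h1
    rw [nrm_smul, nrm_shift, hz] at h2
    refine le_trans (le_of_eq ?_) h2
    unfold nrm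
    simp only [pow_zero, one_mul, hUu T ⟨hT, le_rfl⟩]
  refine ⟨ρ, x, e * w, r0, ?_, ?_, by rw [hz, hp], fun x' => ?_, fun y => ?_⟩
  · have h1 := lifespan_cont hk' hT hu (N := C₁ / ‖e‖) (by positivity)
      (by rwa [le_div_iff₀ he0, mul_comm])
    rw [hu0, ENNReal.ofReal_le_iff_le_toReal hne] at h1
    have h2 : 1 / (8 * (2 * C₁) ^ (2 * m)) * ρ ^ 2 = 1 / (8 * (2 * (C₁ / ‖e‖)) ^ (2 * m)) := by
      rw [← mul_div_assoc, div_pow, hp]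
      field_simp
    linarith
  · have h1 := up (T + 2 * Real.exp τ * ρ ^ 2) fun T' v hT' hv hv0 => by
      obtain ⟨V, hV, hVv, -⟩ := key T' v hT' hv hv0
      refine hext T' V hV ?_
      ext n
      rw [hVv 0 ⟨le_rfl, hT'⟩, hUu 0 ⟨le_rfl, hT⟩, hv0, hu0]
    have h2 := ENNReal.toReal_le_of_le_ofReal (by positivity) h1
    have h3 := mul_le_mul_of_nonneg_right (le_max_right C₁ (2 * Real.exp τ)) (sq_nonneg ρ)
    linarith
  · rw [hz]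
    refine le_trans ?_ (hW.trans (le_max_left _ _))
    refine mul_le_mul_of_nonneg_left ?_ he0.le
    have hs : Summable fun n => ‖u T n‖ := hUu T ⟨hT, le_rfl⟩ ▸ (U T).summable_norm
    have hs' : Summable fun n => ‖u T n * expi n x'‖ := by
      simpa only [norm_mul, norm_expi, mul_one] using hs
    refine (norm_tsum_le_tsum_norm hs').trans (le_of_eq ?_)
    simp only [norm_mul, norm_expi, mul_one]
  · have h1 := (norm_ev_le r0.le _ fun i => ρ * y i).trans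
      (hdist.trans (hδA.trans (min_le_left _ _)))
    have h2 := ev_per r0 r2 (B.Qh k) y
    rw [B.ev_Qh] at h2
    have h3 : WA.ev ((e * w) • shift x (U T) - per ρ (B.Qh k)) (fun i => ρ * y i)
        = e * w * series (u T) (fun i => x i + ρ * y i)
          - WA.ev (per ρ (B.Qh k)) (fun i => ρ * y i) := by
      rw [sub_eq_add_neg, ev_add, ← neg_one_smul ℂ (per ρ (B.Qh k)), WA.ev_smul, WA.ev_smul,
        ev_shift, ← hUu T ⟨hT, le_rfl⟩, neg_one_mul, ← sub_eq_add_neg]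
      rfl
    rw [h3] at h1
    have h4 : (d : ℝ) * 2 ^ k * ρ * ‖y‖ * ‖B.Qh k‖ ≤ η * ‖y‖ := by
      have h5 : (d : ℝ) * 2 ^ k * ρ * ‖B.Qh k‖ ≤ (d : ℝ) * 2 ^ k * lam₁ * ‖B.Qh k‖ := by gcongr
      have h6 := mul_le_mul_of_nonneg_right (h5.trans g3) (norm_nonneg y)
      linarith
    have h7 := norm_sub_le_norm_sub_add_norm_sub (e * w * series (u T) (fun i => x i + ρ * y i))
      (WA.ev (per ρ (B.Qh k)) (fun i => ρ * y i)) (evf B.Q y)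
    linarith

end Vale.Agent.N139
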