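import Vale.Agent.N139.Iter
import Vale.Agent.P139Z.Top
import Vale.Agent.P139Z.ThmA

/-! Mode-stable profiles for all large powers; blow-up with positive probability. -/

open Set Filter Topology MeasureTheory ProbabilityTheory Complex
open scoped NNReal ENNReal ComplexConjugate

namespace Vale.Agent.N139

open Vale.Agent.P139 Vale.Agent.P139.A Vale.Agent.P139Z

/-- Every large power has a mode-stable profile. -/
theorem all_modeStable : ∃ m₁ : ℕ, ∀ m : ℕ, m₁ ≤ m →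
    ∃ (β : ℝ) (G : ℝ → ℂ), IsProfile m β G ∧ ModeStable m β G := by
  by_contra hcon
  have hbad : ∀ m₁ : ℕ, ∃ m : ℕ, m₁ ≤ m ∧
      ∀ (β : ℝ) (G : ℝ → ℂ), IsProfile m β G → ¬ ModeStable m β G := by
    intro m₁
    by_contra h
    refine hcon ⟨m₁, fun m hm => ?_⟩
    by_contra h'
    exact h ⟨m, hm, fun β G h1 h2 => h' ⟨β, G, h1, h2⟩⟩
  obtain ⟨x₁, U, c, ρ₃, C, hx₁, hU, h⟩ := exists_match
  choose m₀ h using fun j : ℕ => h (1 / ((j : ℝ) + 1)) Nat.one_div_pos_of_nat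
  choose M hM hbad using fun j : ℕ => hbad (max (m₀ j) j)
  choose β T x ζ G E h1 h2 h3 h4 h5 h6 h7 h8 using
    fun j => h j (M j) ((le_max_left _ _).trans (hM j))
  obtain ⟨⟨βi, Z, xi, ζi⟩, ⟨a1, a2, -⟩, φ, hφ, ht⟩ :=
    ((isCompact_Icc (a := (0.33473 : ℝ)) (b := 0.33483)).prod
      ((isCompact_Icc (a := (2.7048 : ℝ)) (b := 2.7054)).prod
        ((isCompact_Icc (a := (1 / 2 : ℝ)) (b := x₁)).prod
          (isCompact_sphere (0 : ℂ) 1)))).tendsto_subseq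
      (x := fun j => (β j, T j / 4, x j, ζ j))
      fun j => ⟨h1 j, h2 j, h3 j, mem_sphere_zero_iff_norm.2 (h4 j)⟩
  have hF := Family.of_seq (xi := xi) (ζi := ζi) (Z := Z) hx₁ hU (fun j => h1 (φ j))
    (fun j => h3 (φ j)) (fun j => h2 (φ j)) (fun j => h4 (φ j)) (fun j => h5 (φ j))
    (fun j => h6 (φ j)) (fun j => h7 (φ j)) (fun j => h8 (φ j)) a1 a2
    (tendsto_atTop_mono (fun j => (le_max_right _ _).trans (hM (φ j))) hφ.tendsto_atTop)
    (tendsto_one_div_add_atTop_nhds_zero_nat.comp hφ.tendsto_atTop) ht.fst_nhds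
    ((ht.snd_nhds.fst_nhds.const_mul 4).congr fun j => by
      simp only [Function.comp_apply]
      ring)
    ht.snd_nhds.snd_nhds.fst_nhds ht.snd_nhds.snd_nhds.snd_nhds
  obtain ⟨j, hj⟩ := (modeStable_eventually hF (limStable_of_isLimProf hF.lim)).exists
  exact hbad _ _ _ (hF.prof j) hj

theorem profile_decay {m : ℕ} (hm : 1 ≤ m) {β : ℝ} {G : ℝ → ℂ} (hG : IsProfile m β G) :
    Tendsto G atTop (𝓝 0) := by
  obtain ⟨C, hC⟩ := hG.symbol 0
  have hm0 : (0 : ℝ) < 1 / (2 * (m : ℝ)) + (0 : ℕ) := by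
    have : (0 : ℝ) < m := by exact_mod_cast hm
    push_cast
    positivity
  have h1 := ((tendsto_rpow_neg_atTop hm0).comp
    (tendsto_atTop_add_const_left atTop (1 : ℝ) tendsto_id)).const_mul C
  rw [mul_zero] at h1
  refine squeeze_zero_norm' ?_ h1
  filter_upwards [eventually_ge_atTop 0] with ρ hρ
  simpa using hC ρ hρ

theorem main {m : ℕ} {β : ℝ} {G : ℝ → ℂ} (hm : 1 ≤ m) (hG : IsProfile m β G)
    (hs : ModeStable m β G) : ∃ α₁ c C : ℝ, 0 < c ∧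
    ∀ α : ℝ, α₁ < α → ∀ (Ω : Type) [MeasurableSpace Ω] (P : Measure Ω) [IsProbabilityMeasure P]
      (g : (Fin 12 → ℤ) → Ω → ℂ), (∀ n, Measurable (g n)) → iIndepFun g P →
      (∀ n, P.map (g n) = stdComplexGaussian) → ∀ T₀ η : ℝ, 0 < T₀ → 0 < η →
      ∃ E : Set Ω, MeasurableSet E ∧ 0 < P E ∧ ∀ ω ∈ E, ∀ k : ℕ, 6 < k → (k : ℝ) < α - 6 →
        ∃ Ts : ℝ, 0 < Ts ∧ Ts ≤ T₀ ∧
          lifespan 12 (2 * m + 1) k (datum g α ω) = ENNReal.ofReal Ts ∧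
          ∀ (T : ℝ) (u : ℝ → (Fin 12 → ℤ) → ℂ), 0 ≤ T → IsSolution 12 (2 * m + 1) k T u →
            u 0 = datum g α ω →
            (∃ x, c ≤ (Ts - T) * ‖series (u T) x‖ ^ (2 * m)) ∧
            (∀ x, (Ts - T) * ‖series (u T) x‖ ^ (2 * m) ≤ C) ∧
            ∃ (ρ : ℝ) (x : Fin 12 → ℝ) (z : ℂ), 0 < ρ ∧ c * ρ ^ 2 ≤ Ts - T ∧
              Ts - T ≤ C * ρ ^ 2 ∧ ‖z‖ ^ (2 * m) = ρ ^ 2 ∧ ∀ y : EuclideanSpace ℝ (Fin 12),
                ‖z * series (u T) (fun i => x i + ρ * y i) - G (‖y‖ ^ 2)‖ ≤ η * (1 + ‖y‖) := by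
  obtain ⟨B, hΛ, hQ, hD, hX⟩ := exists_bg hm hG
  have hP : B.PMS 30 := pms_of_modeStable hG.smooth hs B hΛ hQ hD hX
  obtain ⟨k₀, hk₀⟩ := exists_nat_ge (8 * B.K0 + 8)
  have hk : 8 * B.K0 + 8 ≤ ((max 30 k₀ : ℕ) : ℝ) :=
    hk₀.trans (by exact_mod_cast le_max_right 30 k₀)
  have hL : B.LIN (max 30 k₀) := B.lin_of_pms hm hP (le_max_left _ _) hk
  obtain ⟨c, C, hc, hC, H⟩ := det B hm hk hL
  have hq : 0 < ‖G 0‖ := norm_pos_iff.2 hG.ne_zero
  refine ⟨((max 30 k₀ : ℕ) : ℝ) + 1 + (12 : ℕ), min c (c * (‖G 0‖ / 2) ^ (2 * m)),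
    max C (C * C ^ (2 * m)), by positivity, fun α hα Ω _ P _ g hg hind hlaw T₀ η hT₀ hη => ?_⟩
  obtain ⟨φ, ε, hε, hφ, H⟩ := H (min η (‖G 0‖ / 2)) T₀ (by positivity) hT₀
  obtain ⟨E, hE, hP, hω⟩ := ball_pos P g hg hind hlaw hα φ hφ hε
  have hae : ∀ᵐ ω ∂P, ∀ k : ℕ, (k : ℝ) < α - 6 → MemSobolev k (datum g α ω) := by
    refine ae_all_iff.2 fun k => ?_
    by_cases hk : (k : ℝ) < α - 6
    · filter_upwards [ae_memSobolev P g hg hlaw (k := k) (α := α)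
        (by push_cast; linarith)] with ω h _ using h
    · exact Eventually.of_forall fun ω h => absurd h hk
  obtain ⟨N, hN1, hN2, hN3⟩ := exists_measurable_superset_of_null (ae_iff.1 hae)
  refine ⟨E \ N, hE.diff hN2, by rwa [measure_sdiff_null hN3], fun ω h k hk6 hkα => ?_⟩
  have hk' : 12 < 2 * k := by omega
  have hmem : MemSobolev k (datum g α ω) := by
    by_contra h'
    exact h.2 (hN1 fun h'' => h' (h'' k hkα))
  obtain ⟨Ts, -, a2, a3, a4⟩ := H _ (hω ω h.1).1 (hω ω h.1).2 k hk'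
  have a1 : 0 < Ts := by
    have := lifespan_pos_of_mem (m := m) hk' hmem
    rwa [a3, ENNReal.ofReal_pos] at this
  refine ⟨Ts, a1, a2, a3, fun T u hT hu hu0 => ?_⟩
  obtain ⟨ρ, x, z, r0, r1, r2, r3, r4, r5⟩ := a4 T u hT hu hu0
  have hρ : 0 < ρ ^ 2 := by positivity
  refine ⟨⟨x, (min_le_right _ _).trans ?_⟩, fun x' => le_trans ?_ (le_max_right _ _),
    ρ, x, z, r0, le_trans ?_ r1, r2.trans ?_, r3, fun y => ?_⟩
  · have h1 := r5 0
    rw [hQ] at h1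
    simp only [PiLp.zero_apply, mul_zero, add_zero, norm_zero, ne_eq, OfNat.ofNat_ne_zero,
      not_false_eq_true, zero_pow, mul_one] at h1
    have h2 := norm_sub_norm_le (G 0) (z * series (u T) x)
    rw [norm_sub_rev, norm_mul] at h2
    have h3 : ‖G 0‖ / 2 ≤ ‖z‖ * ‖series (u T) x‖ := by
      linarith [h1.trans (min_le_right _ _)]
    have h4 := pow_le_pow_left₀ (by positivity) h3 (2 * m)
    rw [mul_pow, r3] at h4
    calc c * (‖G 0‖ / 2) ^ (2 * m) ≤ c * (ρ ^ 2 * ‖series (u T) x‖ ^ (2 * m)) := by gcongr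
      _ = c * ρ ^ 2 * ‖series (u T) x‖ ^ (2 * m) := by ring
      _ ≤ _ := by gcongr
  · have h4 := pow_le_pow_left₀ (by positivity) (r4 x') (2 * m)
    rw [mul_pow, r3] at h4
    calc (Ts - T) * ‖series (u T) x'‖ ^ (2 * m) ≤ C * ρ ^ 2 * ‖series (u T) x'‖ ^ (2 * m) := by
          gcongr
      _ = C * (ρ ^ 2 * ‖series (u T) x'‖ ^ (2 * m)) := by ring
      _ ≤ _ := by gcongr
  · exact mul_le_mul_of_nonneg_right (min_le_left _ _) hρ.le
  · exact mul_le_mul_of_nonneg_right (le_max_left _ _) hρ.le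
  · rw [← hQ]
    exact (r5 y).trans (mul_le_mul_of_nonneg_right (min_le_left _ _) (by positivity))

end Vale.Agent.N139
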