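import Vale.Agent.P139Z.Blow

/-! The one-step contraction with control at all intermediate times. -/

open Set Filter Topology MeasureTheory Complex
open scoped NNReal ENNReal ComplexConjugate ContDiff

namespace Vale.Agent.N139

open Vale.Agent.P139 Vale.Agent.P139.A Vale.Agent.P139.A.WA Vale.Agent.P139Z
open Vale.Agent.P139Z.XW Vale.Agent.P139Z.Step

variable {d k m : ℕ}

theorem tim_mono (lam : ℝ) {s τ : ℝ} (h : s ≤ τ) : tim lam s ≤ tim lam τ := by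
  unfold tim
  rw [rho_sq, rho_sq]
  have h1 : Real.exp (-τ) ≤ Real.exp (-s) := Real.exp_le_exp.2 (by linarith)
  have := mul_le_mul_of_nonneg_left h1 (sq_nonneg lam)
  linarith

theorem lin_resc' {Λ : ℂ} (hm : 1 ≤ m) (hΛ : Λ.re = 1 / (2 * (m : ℝ))) {lam : ℝ} (h : 0 < lam)
    {U : ℝ → WA d k} {T : ℝ} (hU : IsWSol m T U) {τ : ℝ} (hτ : tim lam τ ≤ T) :
    Step.Lin Λ lam τ (resc Λ lam U) fun s => (-I) • nl m (resc Λ lam U s) := by
  have hmap : MapsTo (tim lam) (Icc 0 τ) (Icc 0 T) := fun s hs =>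
    ⟨(tim_mem hs.1).1, (tim_mono lam hs.2).trans hτ⟩
  have hc : ContinuousOn (resc Λ lam U) (Icc 0 τ) := by
    refine ContinuousOn.smul (fun s _ => (hasDerivAt_amp Λ h s).continuousAt.continuousWithinAt) ?_
    exact hU.cont.comp (fun s _ => (hasDerivAt_tim lam s).continuousAt.continuousWithinAt) hmap
  refine ⟨hc, ((Step.continuous_nl m).comp_continuousOn hc).const_smul (-I), ?_⟩
  intro s hs n
  have h1 := (hU.eqn (tim lam s) (hmap hs) n).scomp s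
    (hasDerivAt_tim lam s).hasDerivWithinAt hmap
  have h2 := (hasDerivAt_amp Λ h s).hasDerivWithinAt.mul h1
  have h3 : (fun t => coef (resc Λ lam U t) n)
      = amp Λ lam * ((fun s => coef (U s) n) ∘ tim lam) := by
    funext t
    simp [resc]
  rw [h3]
  refine h2.congr_deriv ?_
  unfold resc
  rw [nl_smul, amp_pow hm hΛ h]
  simp only [coef_smul, Function.comp, Complex.real_smul]
  push_cast
  ring

/-- The distance from the profile grows at most exponentially, uniformly in the time interval. -/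
theorem w_bound' (B : Bg d m) (hk : 2 ≤ k) {τ₁ : ℝ} (hτ₁ : 0 ≤ τ₁) : ∃ A : ℝ, 1 ≤ A ∧
    ∀ (τ lam ε δ : ℝ) (Us : ℝ → WA d k), 0 ≤ τ → τ ≤ τ₁ → 0 < lam → 0 ≤ δ →
      (∀ s ∈ Icc 0 τ, Err B k (rho lam s) ε) →
      Step.Lin B.Λ lam τ Us (fun s => (-I) • nl m (Us s)) →
      nrm lam k (Us 0 - per lam (B.Qh k)) ≤ δ → A * (δ + ε) < 1 →
      nrm (rho lam τ) k (Us τ - per (rho lam τ) (B.Qh k)) ≤ A * (δ + ε) := by
  obtain ⟨C, hC, hCb⟩ := nrm_nl_sub (d := d) (k := k) m (2 ^ k * ‖B.Qh k‖ + 1)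
  have hN : 0 ≤ ‖B.Qh (k + 1)‖ := norm_nonneg _
  have hE : 1 ≤ Real.exp (C * τ₁) := Real.one_le_exp (by positivity)
  refine ⟨(1 + (1 + ‖B.Qh (k + 1)‖) * τ₁) * Real.exp (C * τ₁), ?_, ?_⟩
  · have : 0 ≤ (1 + ‖B.Qh (k + 1)‖) * τ₁ := by positivity
    nlinarith
  intro τ lam ε δ Us hτ hττ hlam hδ hErr hUs h0 hsmall
  have hε : 0 ≤ ε := (hErr 0 ⟨le_rfl, hτ⟩).nonneg
  have hL := hUs.sub (lin_q B hk hlam τ)
  have hle : (δ + ε * (1 + ‖B.Qh (k + 1)‖) * τ) * Real.exp (C * τ)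
      ≤ (1 + (1 + ‖B.Qh (k + 1)‖) * τ₁) * Real.exp (C * τ₁) * (δ + ε) := by
    rw [mul_right_comm _ (Real.exp (C * τ₁))]
    refine mul_le_mul ?_ (by gcongr) (Real.exp_pos _).le (by positivity)
    have h1 : 0 ≤ (1 + ‖B.Qh (k + 1)‖) * τ₁ * δ := by positivity
    have h2 : ε * (1 + ‖B.Qh (k + 1)‖) * τ ≤ ε * (1 + ‖B.Qh (k + 1)‖) * τ₁ := by gcongr
    nlinarith
  refine (gronwall_boot (a := δ) (γ := ε * (1 + ‖B.Qh (k + 1)‖)) hC (by positivity) hδ hτ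
    (continuousOn_nrm_rho hlam.le le_rfl hL.cz) (continuousOn_nrm_rho hlam.le le_rfl hL.cg)
    (fun t ht => ?_) (fun t ht h1 => ?_) (hle.trans_lt hsmall) τ ⟨hτ, le_rfl⟩).trans hle
  · refine (hL.plain hlam.le (Lam_re_nonneg B) le_rfl ht).trans (add_le_add ?_ le_rfl)
    rw [rho_zero]
    exact h0
  · have he := hErr t ht
    have hp := he.pos.le
    have e : (-I) • nl m (Us t) - ((-I) • lapErr (rho lam t) (B.Qh (k + 1))
        + per (rho lam t) ((-I) • B.Nh k))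
        = (-I) • ((nl m (Us t) - nl m (per (rho lam t) (B.Qh k)))
          + (nl m (per (rho lam t) (B.Qh k)) - per (rho lam t) (B.Nh k))
          - lapErr (rho lam t) (B.Qh (k + 1))) := by
      rw [map_smul]
      module
    rw [e, nrm_negI]
    have hq := nrm_per_le he.pos he.le_one (B.Qh k)
    have hU : nrm (rho lam t) k (Us t) ≤ 2 ^ k * ‖B.Qh k‖ + 1 := by
      have e2 : Us t = per (rho lam t) (B.Qh k) + (Us t - per (rho lam t) (B.Qh k)) := by abel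
      rw [e2]
      exact (nrm_add_le hp le_rfl _ _).trans (add_le_add hq h1)
    have h2 := hCb _ hp k le_rfl _ _ hU (hq.trans (le_add_of_nonneg_right zero_le_one))
    have h3 := he.lap (B.Qh (k + 1))
    have h4 := he.eN
    have h5 := (nrm_sub_le hp le_rfl _ (lapErr (rho lam t) (B.Qh (k + 1)))).trans
      (add_le_add ((nrm_add_le hp le_rfl _ _).trans (add_le_add h2 h4)) h3)
    refine h5.trans (le_of_eq ?_)
    ring

/-- One step of the iteration, for a solution that is only known to exist on `[0, T]`. -/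
theorem one_step' (B : Bg d m) (hm : 1 ≤ m) (hk : 8 * B.K0 + 8 ≤ k) (hL : B.LIN k) :
    ∃ δ₀ τ A : ℝ, 0 < δ₀ ∧ 0 < τ ∧ 0 < A ∧ ∀ δ : ℝ, 0 < δ → δ ≤ δ₀ →
      ∃ lam₀ : ℝ, 0 < lam₀ ∧ lam₀ ≤ 1 ∧
      ∀ lam : ℝ, 0 < lam → lam ≤ lam₀ → ∀ (T : ℝ) (U : ℝ → WA d k), IsWSol m T U →
        B.dist k lam (U 0) ≤ δ →
        (∀ s ∈ Icc 0 τ, tim lam s ≤ T → B.dist k (rho lam s) (U (tim lam s)) ≤ A * δ) ∧
        (tim lam τ ≤ T → ∃ lam' : ℝ, 0 < lam' ∧ lam' ≤ lam / 2 ∧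
          ∃ (x : Fin d → ℝ) (w : ℂ), ‖w‖ = 1 ∧
            B.dist k lam' (w • shift x (U (tim lam τ))) ≤ δ) := by
  have hK0 := K0_nonneg B
  have hk8 : (8 : ℝ) ≤ k := by linarith
  have hk2 : 2 ≤ k := by
    have : (2 : ℝ) ≤ k := by linarith
    exact_mod_cast this
  obtain ⟨p, hp⟩ : ∃ p : ℝ, p = 2 ^ k := ⟨_, rfl⟩
  have hp1 : 1 ≤ p := hp ▸ one_le_pow₀ one_le_two
  have hp0 : 0 < p := by linarith
  obtain ⟨τ, hτ₀, hτ, L₀, hLIN⟩ := hL (1 / (16 * p ^ 3)) (by positivity) (16 * p)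
  obtain ⟨L, hLd⟩ : ∃ L, L = |L₀| + 1 := ⟨_, rfl⟩
  have hL1 : 1 ≤ L := by rw [hLd]; linarith [abs_nonneg L₀]
  have hL0 : 0 < L := by linarith
  have hLL : L₀ ≤ L := by rw [hLd]; linarith [le_abs_self L₀]
  obtain ⟨C, hC, hcore⟩ := core B hm hk2 (by linarith) hτ.le
  have hC0 : 0 < C := by linarith
  obtain ⟨A, hA, hw⟩ := w_bound' B hk2 hτ.le
  have hA0 : 0 < A := by linarith
  obtain ⟨δm, hδm, hmod⟩ := B.modulation hk2 (1 / (8 * p ^ 2 * L)) (by positivity)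
  refine ⟨min (1 / (4 * A)) (min (1 / (16 * p * C)) (min δm 1 / (L * p))), τ, 2 * A,
    by positivity, hτ, by positivity, fun δ hδ hδ00 => ?_⟩
  have hδA : δ ≤ 1 / (4 * A) := hδ00.trans (min_le_left _ _)
  have hδ0 := hδ00.trans (min_le_right _ _)
  have hδ1 : δ ≤ 1 / (16 * p * C) := hδ0.trans (min_le_left _ _)
  have hδ2 : L * (p * δ) ≤ min δm 1 := by
    have h := hδ0.trans (min_le_right _ _)
    rw [le_div_iff₀ (by positivity)] at h
    linarith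
  have hCδ : C * δ ≤ 1 := by
    rw [le_div_iff₀ (by positivity)] at hδ1
    have : 0 ≤ (16 * p - 1) * (C * δ) := mul_nonneg (by linarith) (by positivity)
    linarith
  obtain ⟨M, hM⟩ : ∃ M, M = 16 * p * C := ⟨_, rfl⟩
  have hM0 : 0 ≤ M := by rw [hM]; positivity
  have hN := norm_nonneg (B.Qh k)
  obtain ⟨ε, hε⟩ : ∃ ε, ε = δ / (16 * (‖B.Qh k‖ + 1) + 16 * p * C * (1 + M)) := ⟨_, rfl⟩
  have hε0 : 0 < ε := by rw [hε]; positivity
  have hεδ : ε ≤ δ := by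
    rw [hε]
    refine div_le_self hδ.le ?_
    have : 0 ≤ 16 * p * C * (1 + M) := by positivity
    linarith
  obtain ⟨lam₀, hl0, hl1, hErr⟩ := exists_err B hm k hε0
  refine ⟨lam₀, hl0, hl1, fun lam hlam hle T U hU h0 => ?_⟩
  have hE : ∀ s ∈ Icc 0 τ, Err B k (rho lam s) ε := fun s hs =>
    hErr _ (rho_pos hlam s) ((rho_le hlam.le hs.1).trans hle)
  have h0' : nrm lam k (resc B.Λ lam U 0 - per lam (B.Qh k)) ≤ δ := by
    unfold resc amp
    rw [rho_zero, tim_zero]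
    exact h0
  refine ⟨fun s hs hsT => ?_, fun hT => ?_⟩
  · have h1 : A * (δ + ε) ≤ 2 * A * δ := by nlinarith
    have h2 : 2 * A * δ < 1 := by
      rw [le_div_iff₀ (by positivity)] at hδA
      linarith
    exact (hw s lam ε δ _ hs.1 hs.2 hlam hδ.le (fun r hr => hE r ⟨hr.1, hr.2.trans hs.2⟩)
      (lin_resc' hm B.Λ_re hlam hU hsT) h0' (h1.trans_lt h2)).trans h1
  obtain ⟨Z, hZ, hZ0, hz⟩ := hcore lam ε δ M _ hlam (hle.trans hl1) hM0 hδ hεδ hCδ hE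
    (lin_resc' hm B.Λ_re hlam hU hT) h0'
  rw [← hp] at hZ0
  obtain ⟨θ, μ, y, hpar, hX⟩ := hLIN Z hZ
  have hpar' : |θ| + |μ| + ‖y‖ ≤ L * (p * δ) :=
    hpar.trans ((mul_le_mul_of_nonneg_right hLL (norm_nonneg _)).trans
      (mul_le_mul_of_nonneg_left hZ0 hL0.le))
  have hpar1 : |θ| + |μ| + ‖y‖ ≤ 1 := hpar'.trans (hδ2.trans (min_le_right _ _))
  have hm1 := (hmod θ μ y (hpar'.trans (hδ2.trans (min_le_left _ _)))).trans
    (mul_le_mul_of_nonneg_left hpar' (by positivity))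
  have hκ : 1 / (8 * p ^ 2 * L) * (L * (p * δ)) ≤ 1 := by
    refine mul_le_one₀ ?_ (by positivity) (hδ2.trans (min_le_right _ _))
    rw [div_le_one (by positivity)]
    have h1 : 1 ≤ p ^ 2 := one_le_pow₀ hp1
    nlinarith
  have hρ : rho lam τ ≤ lam / 4 := by
    have h1 : Real.exp (-(τ / 2)) ≤ 1 / 4 := exp_neg_le (by norm_num) (by linarith)
    unfold rho
    rw [neg_div]
    linarith [mul_le_mul_of_nonneg_left h1 hlam.le]
  have hρ0 := rho_pos hlam τ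
  have hfin := final_mod B hm hρ0 (by linarith) (hE τ ⟨hτ.le, le_rfl⟩).sm hpar1 hm1 hκ
    (hX.trans (mul_le_mul_of_nonneg_left hZ0 (by positivity))) hz
  rw [← hp] at hfin
  have hμ : Real.exp (-μ / 2) ≤ 2 := by
    have h1 : |μ| ≤ 1 := by linarith [abs_nonneg θ, norm_nonneg y]
    exact exp_le_two (by linarith [(abs_le.1 h1).1])
  refine ⟨rho lam τ * Real.exp (-μ / 2), by positivity,
    ?_, fun i => rho lam τ * Real.exp (-μ / 2) * (-y) i, cexp (-I * θ), norm_phase' θ, ?_⟩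
  · linarith [mul_le_mul_of_nonneg_left hμ hρ0.le]
  · unfold Bg.dist
    rw [smul_comm, ← map_smul, amp_dil B.Λ hlam, mul_smul]
    exact hfin.trans (final_real hp1 hN hC hL1 hδ hδ1 hM hε
      (exp_neg_le (by positivity) hτ₀) le_rfl le_rfl)

end Vale.Agent.N139
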